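import Vale.Agent.P281.H864.HK.WInt
import Vale.Agent.P281.H747.TS.Mk
import Vale.Agent.P281.H713.DefsK

/-!
# P281, project T-HK (helper191): `B(a, b) = ∫ a ∧ b ∧ c^(d-2)` in the coordinates of a marking
-/

open Set Filter Metric MeasureTheory Vale.Agent.P272.K
open scoped Topology ContDiff ComplexConjugate ComplexOrder

noncomputable section

namespace Vale.Agent.P281.H191.HK

open Vale.Agent.P281.H64.TK Vale.Agent.P281.H64.TK.TS Vale.Agent.P281.H747.TS
open Vale.Agent.P281.H713 (bil)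
open Vale.Agent.P281.H83.HK (bW W3 abc Bc kc kw)
open Vale.Agent.P281.H864.HK (Wint W_eq W3_comm W3_add_left W3_smul_left W3_conj wint_class
  wint_cont wint_pull)

section
variable {d : ℕ} {E Γ : Type} [TopologicalSpace E] [Group Γ] [MulAction Γ E] {S : Sheets d E Γ}

/-- `(a, b, c, …, c)`. -/
def f3 (a b c : Fin S.N → Cm d → L2 d) (k : Fin d) : Fin S.N → Cm d → L2 d :=
  if k.val = 0 then a else if k.val = 1 then b else c

theorem f3_apply (a b c : Fin S.N → Cm d → L2 d) (i : Fin S.N) (z : Cm d) :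
    (fun k => f3 a b c k i z) = abc (a i z) (b i z) (c i z) := by
  funext k
  unfold f3 abc
  split_ifs <;> rfl

theorem f3_prop {P : (Fin S.N → Cm d → L2 d) → Prop} {a b c : Fin S.N → Cm d → L2 d} (ha : P a)
    (hb : P b) (hc : P c) (k : Fin d) : P (f3 a b c k) := by
  unfold f3
  split_ifs <;> assumption

theorem bW_eq (a b c : Fin S.N → Cm d → L2 d) : bW S a b c = Wint S (f3 a b c) := by
  unfold bW Wint
  congr 1
  funext i z
  rw [W3, W_eq, ← f3_apply]

theorem exact_self (a : Fin S.N → Cm d → L2 d) : Exact S (fun i z => a i z - a i z) :=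
  exact_congr exact_zero fun i z _ => l2_ext fun u v => by
    show (0 : ℂ) = a i z u v - a i z u v
    ring

theorem bW_comm (hd : 1 < d) (a b c : Fin S.N → Cm d → L2 d) : bW S a b c = bW S b a c := by
  unfold bW
  congr 1
  funext i z
  exact W3_comm hd _ _ _

variable [ContinuousConstSMul Γ E] [Subsingleton Γ]

/-- `B(a, b)` depends on the classes of `a`, `b`, `c` only. -/
theorem bW_class {a b c a' b' c' : Fin S.N → Cm d → L2 d} (ha : Cl2 S a) (hb : Cl2 S b)
    (hc : Cl2 S c) (ha' : Cl2 S a') (hb' : Cl2 S b') (hc' : Cl2 S c')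
    (ea : Exact S (fun i z => a i z - a' i z)) (eb : Exact S (fun i z => b i z - b' i z))
    (ec : Exact S (fun i z => c i z - c' i z)) : bW S a b c = bW S a' b' c' := by
  rw [bW_eq, bW_eq]
  refine wint_class (f3_prop ha hb hc) (f3_prop ha' hb' hc') fun k => ?_
  unfold f3
  split_ifs <;> assumption

/-- `B(a, b)` is invariant under a diffeomorphism. -/
theorem bW_pull [T2Space E] {E' Γ' : Type} [TopologicalSpace E'] [T2Space E'] [Group Γ']
    [Subsingleton Γ'] [MulAction Γ' E'] [ContinuousConstSMul Γ' E'] {S' : Sheets d E' Γ'}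
    {τ : E ≃ₜ E'} (hd : 0 < d) (hτ : Dif S S' τ) {a b c : Fin S.N → Cm d → L2 d}
    {a' b' c' : Fin S'.N → Cm d → L2 d} (ha : Cl2 S a) (hb : Cl2 S b) (hc : Cl2 S c)
    (ha' : Cl2 S' a') (hb' : Cl2 S' b') (hc' : Cl2 S' c') (pa : Pull2 S S' τ a a')
    (pb : Pull2 S S' τ b b') (pc : Pull2 S S' τ c c') : bW S a b c = bW S' a' b' c' := by
  rw [bW_eq, bW_eq]
  refine wint_pull hd hτ (f3_prop ha hb hc) (f3_prop ha' hb' hc') fun k => ?_
  unfold f3
  split_ifs <;> assumption

theorem cont3 {a b c : Fin S.N → Cm d → L2 d} (ha : Cl2 S a) (hb : Cl2 S b) (hc : Cl2 S c)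
    (i : Fin S.N) : ContinuousOn (fun z => W3 (a i z) (b i z) (c i z)) (ball 0 3) := by
  refine (wint_cont (f3_prop ha hb hc) i).congr fun z _ => ?_
  show W3 (a i z) (b i z) (c i z) = Vale.Agent.P281.H864.HK.W fun k => f3 a b c k i z
  rw [W3, W_eq, ← f3_apply]

theorem bW_add_smul (hd : 0 < d) {a a' b c : Fin S.N → Cm d → L2 d} (ha : Cl2 S a)
    (ha' : Cl2 S a') (hb : Cl2 S b) (hc : Cl2 S c) (x : ℂ) :
    bW S (fun i z => a i z + x • a' i z) b c = bW S a b c + x * bW S a' b c := by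
  unfold bW Sheets.int
  rw [Finset.mul_sum, ← Finset.sum_add_distrib]
  refine Finset.sum_congr rfl fun i _ => ?_
  have h1 : IntegrableOn (fun z => W3 (a i z) (b i z) (c i z)) (S.P i) :=
    H840.TS.integ S i (cont3 ha hb hc i) (H840.TS.P_sub S i)
  have h2 : IntegrableOn (fun z => W3 (a' i z) (b i z) (c i z)) (S.P i) :=
    H840.TS.integ S i (cont3 ha' hb hc i) (H840.TS.P_sub S i)
  rw [← integral_const_mul, ← integral_add h1 (h2.const_mul x)]
  refine integral_congr_ae (Filter.Eventually.of_forall fun z => ?_)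
  show W3 (a i z + x • a' i z) (b i z) (c i z) = _
  rw [W3_add_left hd, W3_smul_left hd]

omit [ContinuousConstSMul Γ E] [Subsingleton Γ] in
theorem bW_zero (hd : 0 < d) (b c : Fin S.N → Cm d → L2 d) : bW S (fun _ _ => 0) b c = 0 := by
  have h : ∀ b c : L2 d, W3 0 b c = 0 := fun b c => by
    have e : (0 : ℂ) • (0 : L2 d) = 0 := l2_ext fun u v => by
      show (0 : ℂ) * 0 = 0
      ring
    have h1 := W3_smul_left hd 0 0 b c
    rw [e, zero_mul] at h1
    exact h1
  unfold bW Sheets.int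
  simp [h]

theorem bW_sum (hd : 0 < d) {ι : Type} (s : Finset ι) {a : ι → Fin S.N → Cm d → L2 d}
    {b c : Fin S.N → Cm d → L2 d} (x : ι → ℂ) (h : ∀ k ∈ s, Cl2 S (a k)) (hb : Cl2 S b)
    (hc : Cl2 S c) :
    bW S (fun i z => ∑ k ∈ s, x k • a k i z) b c = ∑ k ∈ s, x k * bW S (a k) b c := by
  classical
  induction s using Finset.induction_on with
  | empty =>
    simp only [Finset.sum_empty]
    exact bW_zero hd b c
  | insert j s hj ih =>
    rw [Finset.sum_insert hj, ← ih fun k hk => h k (Finset.mem_insert_of_mem hk),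
      add_comm (x j * bW S (a j) b c),
      ← bW_add_smul hd (cl2_sum s x fun k hk => h k (Finset.mem_insert_of_mem hk))
        (h j (Finset.mem_insert_self j s)) hb hc (x j)]
    congr 1
    funext i z
    refine l2_ext fun u v => ?_
    show (∑ k ∈ insert j s, x k • a k i z) u v =
      (∑ k ∈ s, x k • a k i z) u v + x j * a j i z u v
    rw [sum_ap, sum_ap, Finset.sum_insert hj, add_comm]
    rfl

omit [ContinuousConstSMul Γ E] in
theorem bW_conj {a b c : Fin S.N → Cm d → L2 d} (ha : Real2 S a) (hb : Real2 S b)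
    (hc : Real2 S c) : conj (bW S a b c) = bW S a b c := by
  unfold bW Sheets.int
  rw [map_sum]
  refine Finset.sum_congr rfl fun i _ => ?_
  rw [← integral_conj]
  refine setIntegral_congr_fun (H840.TS.meas_P S i) fun z hz => ?_
  have hz3 : z ∈ ball (0 : Cm d) 3 := by
    have : ‖z‖ < 1 := hz.1
    simp only [mem_ball, dist_zero_right]
    linarith
  exact (W3_conj (fun u v => (Complex.conj_eq_iff_im.2 (ha i z hz3 u v)).symm)
    (fun u v => (Complex.conj_eq_iff_im.2 (hb i z hz3 u v)).symm)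
    (fun u v => (Complex.conj_eq_iff_im.2 (hc i z hz3 u v)).symm)).symm

theorem Bc_eq {n : ℕ} (M : Mark2 S n) {c : Fin S.N → Cm d → L2 d} (hcr : Real2 S c)
    (k l : Fin n) : (Bc M c k l : ℂ) = bW S (M.b k) (M.b l) c := by
  exact Complex.conj_eq_iff_re.1 (bW_conj (M.real k) (M.real l) hcr)

/-- **`B` in the coordinates of a marking.** -/
theorem bW_cl (hd : 1 < d) {n : ℕ} (M : Mark2 S n) {c : Fin S.N → Cm d → L2 d} (hc : Cl2 S c)
    (hcr : Real2 S c) {α β : Fin S.N → Cm d → L2 d} (hα : Cl2 S α) (hβ : Cl2 S β) :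
    bW S α β c = bil (Bc M c) (M.cl α) (M.cl β) := by
  have hd0 : 0 < d := by omega
  have key : ∀ {α β : Fin S.N → Cm d → L2 d}, Cl2 S α → Cl2 S β →
      bW S α β c = ∑ k, M.cl α k * bW S (M.b k) β c := by
    intro α β hα hβ
    rw [← bW_sum hd0 Finset.univ (M.cl α) (fun k _ => M.closed k) hβ hc]
    exact bW_class hα hβ hc (cl2_sum Finset.univ (M.cl α) fun k _ => M.closed k) hβ hc
      (M.ex α hα) (exact_self β) (exact_self c)
  rw [key hα hβ]
  unfold bil
  refine Finset.sum_congr rfl fun k _ => ?_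
  rw [bW_comm hd, key hβ (M.closed k), Finset.mul_sum]
  refine Finset.sum_congr rfl fun l _ => ?_
  rw [bW_comm hd (M.b l), ← Bc_eq M hcr]
  ring

end

end Vale.Agent.P281.H191.HK
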