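import Vale.Agent.P281.H83.HK.Spec
import Vale.Agent.P281.H191.HK.Int3
import Vale.Agent.P281.H747.TS.PullMark
import Vale.Agent.P281.H864.TS.Pull

/-!
# P281, project T-HK: D4', the pull-back of a marking, with the metrics
-/

open Set Filter Metric MeasureTheory Vale.Agent.P281.H713 Vale.Agent.P272.K
open scoped Topology ContDiff ComplexConjugate

noncomputable section

namespace Vale.Agent.P281.H191.HK

open Vale.Agent.P281.H64.TK Vale.Agent.P281.H64.TK.TS Vale.Agent.P281.H747.TS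
open Vale.Agent.P281.H83.HK

/-- The pull-back of a marking. -/
theorem pull_mark (hP : PullStmt) {d : ℕ} {E Γ : Type} [TopologicalSpace E] [T2Space E]
    [Group Γ] [Subsingleton Γ] [MulAction Γ E] [ContinuousConstSMul Γ E] (S : Sheets d E Γ)
    {E' Γ' : Type} [TopologicalSpace E'] [T2Space E'] [Group Γ'] [Subsingleton Γ']
    [MulAction Γ' E'] [ContinuousConstSMul Γ' E'] (S' : Sheets d E' Γ') (τ : E ≃ₜ E') {n : ℕ}
    (M' : Mark2 S' n) (h0 : 0 < d) (hd : Dif S S' τ) :
    ∃ M : Mark2 S n, (∀ k, Pull2 S S' τ (M.b k) (M'.b k)) ∧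
      ∀ α α', Cl2 S α → Cl2 S' α' → Pull2 S S' τ α α' → M.cl α = M'.cl α' := by
  obtain ⟨hd', hex, hinv, hpr⟩ := hP d E Γ S E' Γ' S' τ h0 hd
  obtain ⟨-, hex', hinv', hpr'⟩ := hP d E' Γ' S' E Γ S τ.symm h0 hd'
  choose b hb hbp using fun k => hex (M'.b k) (M'.closed k)
  choose! r hr hrp using hex'
  have hrp' : ∀ α, Cl2 S α → Pull2 S S' τ α (r α) := fun α hα =>
    hinv' (r α) α (hr α hα) hα (hrp α hα)
  have hbp' : ∀ k, Pull2 S' S τ.symm (M'.b k) (b k) := fun k =>
    hinv (b k) (M'.b k) (hb k) (M'.closed k) (hbp k)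
  let M : Mark2 S n :=
    { b := b
      cl := fun α => M'.cl (r α)
      closed := hb
      real := fun k => ((hpr (b k) (M'.b k) (hbp k)).2.1) (M'.real k)
      int := fun k => ((hpr (b k) (M'.b k) (hbp k)).1) (M'.int k)
      ex := fun α hα => by
        have h1 : Pull2 S S' τ (fun i z => α i z - ∑ k, M'.cl (r α) k • b k i z)
            (fun i z => r α i z - ∑ k, M'.cl (r α) k • M'.b k i z) :=
          pull2_sub (hrp' α hα) (pull2_sum Finset.univ (M'.cl (r α)) fun k _ => hbp k)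
        exact (hpr _ _ h1).2.2 (M'.ex (r α) (hr α hα))
      indep := fun c hc => by
        have h1 : Pull2 S' S τ.symm (fun i z => ∑ k, c k • M'.b k i z)
            (fun i z => ∑ k, c k • b k i z) := pull2_sum Finset.univ c fun k _ => hbp' k
        exact M'.indep c ((hpr' _ _ h1).2.2 hc)
      intcl := fun α hα hi k =>
        M'.intcl (r α) (hr α hα) ((hpr' _ _ (hrp α hα)).1 hi) k }
  refine ⟨M, hbp, ?_⟩
  intro α α' hα hα' hp
  show M'.cl (r α) = M'.cl α'
  exact cl_congr M' (hr α hα) fun j z' hz' =>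
    pull_unique hd hd' (hrp α hα) (hinv α α' hα hα' hp) j hz'

/-- **D4'** from I0. -/
theorem pullMark2 (hF : FormsStmt) : PullMark2Stmt := by
  intro d E Γ _ _ _ _ _ _ S E' Γ' _ _ _ _ _ _ S' τ n M' w w' κ hd hτ hw hw' hκ hp he
  have h0 : 0 < d := by omega
  obtain ⟨M, hb, hcl⟩ := pull_mark H864.TS.pull S S' τ M' h0 hτ
  have cw : Cl2 S (kw w) := ((hF d E Γ S h0).2.1 w hw).1
  have cw' : Cl2 S' (kw w') := ((hF d E' Γ' S' h0).2.1 w' hw').1
  refine ⟨M, ?_, ?_, hcl⟩
  · unfold Bc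
    congr 1
    funext k l
    have h1 : bW S (M.b k) (M.b l) (kw w) = bW S (M.b k) (M.b l) κ :=
      (bW_class (M.closed k) (M.closed l) hκ (M.closed k) (M.closed l) cw (exact_self _)
        (exact_self _) he).symm
    have h2 : bW S (M.b k) (M.b l) κ = bW S' (M'.b k) (M'.b l) (kw w') :=
      bW_pull h0 hτ (M.closed k) (M.closed l) hκ (M'.closed k) (M'.closed l) cw' (hb k) (hb l) hp
    rw [h1, h2]
  · funext k
    have h1 : M.cl (kw w) = M.cl κ := by
      have h2 := cl_of_exact M (cl2_sub hκ cw) he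
      have h3 := cl_add M (cl2_sub hκ cw) cw
      rw [h2, zero_add] at h3
      rw [← h3]
      exact cl_congr M (cl2_add (cl2_sub hκ cw) cw) fun i z _ => sub_add_cancel (κ i z) (kw w i z)
    show (M.cl (kw w) k).re = (M'.cl (kw w') k).re
    rw [h1, hcl κ (kw w') hκ cw' hp]

end Vale.Agent.P281.H191.HK
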