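import Vale.Agent.P281.H83.HK.Spec
import Vale.Agent.P281.H191.HK.Int3
import Vale.Agent.P281.H191.TwoMark

/-!
# P281, project T-HK: D5', two markings of the same manifold
-/

open Set Filter Metric MeasureTheory Vale.Agent.P281.H713 Vale.Agent.P272.K
open scoped Topology ContDiff ComplexConjugate

noncomputable section

namespace Vale.Agent.P281.H191.HK

open Vale.Agent.P281.H64.TK Vale.Agent.P281.H64.TK.TS Vale.Agent.P281.H747.TS
open Vale.Agent.P281.H83.HK
open Vale.Agent.P281.H191.TS (cl_change)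

/-- **D5'** -/
theorem twoMark2 : TwoMark2Stmt := by
  intro d E Γ _ _ _ _ _ _ S n M M' c hd hc hcr
  choose a ha using fun k j => M'.intcl (M.b k) (M.closed k) (M.int k) j
  choose a' ha' using fun k j => M.intcl (M'.b k) (M'.closed k) (M'.int k) j
  refine ⟨Matrix.of fun j k => a k j, ?_, fun α hα => cl_change M M' a ha hα, ?_⟩
  · refine Matrix.isUnit_det_of_left_inverse (B := Matrix.of fun j k => a' k j) ?_
    ext i k
    have h1 := cl_change M' M a' ha' (M.closed k)
    rw [cl_b] at h1
    have h2 := congrFun h1 i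
    have h3 : ((Matrix.of fun j k => a' k j).map (Int.cast : ℤ → ℂ)).mulVec (M'.cl (M.b k)) i =
        ((∑ j, a' j i * a k j : ℤ) : ℂ) := by
      show ∑ j, ((a' j i : ℤ) : ℂ) * M'.cl (M.b k) j = _
      push_cast
      exact Finset.sum_congr rfl fun j _ => by rw [ha]
    rw [h3] at h2
    rw [Matrix.mul_apply]
    show ∑ j, a' j i * a k j = (1 : Matrix (Fin n) (Fin n) ℤ) i k
    rw [Matrix.one_apply]
    have h4 : (Pi.single k (1 : ℂ) : Fin n → ℂ) i = ((if i = k then (1 : ℤ) else 0 : ℤ) : ℂ) := by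
      by_cases h : i = k
      · subst h; simp
      · rw [Pi.single_eq_of_ne h, if_neg h, Int.cast_zero]
    rw [h4] at h2
    exact (Int.cast_injective h2).symm
  · ext k l
    have hcl : ∀ k, M'.cl (M.b k) = fun j => (((a k j : ℤ) : ℝ) : ℂ) := fun k => by
      funext j
      rw [ha]
      push_cast
      rfl
    have h1 : bW S (M.b k) (M.b l) c = bil (Bc M' c) (M'.cl (M.b k)) (M'.cl (M.b l)) :=
      bW_cl (by omega) M' hc hcr (M.closed k) (M.closed l)
    rw [hcl k, hcl l, bil_re] at h1
    have h2 : Bc M c k l = (fun j => ((a k j : ℤ) : ℝ)) ⬝ᵥ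
        (Bc M' c).mulVec (fun j => ((a l j : ℤ) : ℝ)) := by
      show (bW S (M.b k) (M.b l) c).re = _
      rw [h1, Complex.ofReal_re]
    rw [h2, Matrix.mul_apply]
    simp only [Matrix.mul_apply, Matrix.transpose_apply, Matrix.map_apply, Matrix.of_apply,
      dotProduct, Matrix.mulVec, Finset.sum_mul, Finset.mul_sum]
    rw [Finset.sum_comm]
    refine Finset.sum_congr rfl fun i _ => Finset.sum_congr rfl fun j _ => ?_
    ring

end Vale.Agent.P281.H191.HK
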